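import Vale.Agent.P330.R2.H142.Limits

/-!
# P330: which constants are impossible in the PCP-for-PPAD conjecture

See `Vale/Agent/P330/H241/Defs.lean` for the definitions of the problem,
`Vale/Agent/P330/H241/Classes.lean` and `Vale/Agent/P330/R2/H142/Defs.lean` for the classes of gates.
-/

namespace Vale.Agent.Results.P330.ConstantLimits

open Vale.Agent.P330 Vale.Agent.P330.R2.H142

/-- (1) The algorithm. (2) The conjecture and its weak form for `ε ≥ 1/5` or `δ ≥ 1/2`.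
(3) The gates of the circuits of any reduction. -/
theorem result :
    (∀ ε : ℝ, 0 < ε → ∃ (C : ℕ) (F : GenCircuit → List ℚ),
      PolyTime circuitW (listW ratW) F ∧ ∀ G : GenCircuit, IsAssignment G (F G) ∧
        (listW ratW (F G)).length ≤ C * (circuitW G).length ∧
        (1 / 5 ≤ ε → ∀ g ∈ G.gates, g.Sat ε (val (F G))) ∧
        G.gates.length ≤ 2 * numSat ε G (F G) ∧
        G.gates.length ≤ numSat ε G (F G) + rest G) ∧
    (∀ ε δ : ℝ, 0 < ε → 0 < δ → 1 / 5 ≤ ε ∨ 1 / 2 ≤ δ →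
      ∀ p : Polynomial ℕ, 2 ≤ p.natDegree →
        (PolySizePCP ε δ p ↔ EndOfLineInFP) ∧ (PCPforPPAD ε δ p ↔ EndOfLineInFP)) ∧
    (∀ ε δ : ℝ, 0 < ε → 0 < δ → ∀ p : Polynomial ℕ, 2 ≤ p.natDegree → ∀ R D,
      IsReduction ε δ p R D → ∀ m : ℕ,
        (∀ I : EndOfLine, m ≤ (eolW I).length → (rest (R I) : ℝ) ≤ δ * (R I).gates.length) →
        EndOfLineInFP) :=
  ⟨fun _ h0 => alg h0, fun _ _ h0 hδ h _ hp => equiv h0 hδ h hp,
    fun _ _ h0 hδ _ hp _ _ hR m h => main h0 hp hR hδ.le (m := m) fun I hI => Or.inr (h I hI)⟩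

end Vale.Agent.Results.P330.ConstantLimits
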